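import Crest.Agent.X212.Crt72.Props
import Crest.Agent.X212.Cyf70.Op
import Crest.Agent.X212.Wrd81.Par

/-!
# Row 212, CRIT (helper1): the spectral flow of a symmetric operator of Dirac type (`SfStmt`)
-/

set_option autoImplicit false
set_option linter.unusedSectionVars false
noncomputable section
open scoped Manifold ContDiff Topology InnerProductSpace BoundedContinuousFunction
open MeasureTheory Set Function Filter

namespace Crest.Agent.X212.Ms1
open An An.Pre Sob92 Ell97 Cyf70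

variable {E : Type} [NormedAddCommGroup E] [NormedSpace ℝ E] [FiniteDimensional ℝ E]
  [MeasurableSpace E] [BorelSpace E]
  {HM : Type} [TopologicalSpace HM] {I : ModelWithCorners ℝ E HM} [I.Boundaryless]
  {Y : Type} [TopologicalSpace Y] [ChartedSpace HM Y] [IsManifold I ∞ Y] [T2Space Y]
  [MeasurableSpace Y] [BorelSpace Y] [SecondCountableTopology Y] [CompactSpace Y]
  {ι : Type} [Fintype ι] {V : Type} [NormedAddCommGroup V] [InnerProductSpace ℝ V]
  [FiniteDimensional ℝ V] {F : Fr I Y ι} {p B : Y → V →L[ℝ] V} {σ : ι → Y → V →L[ℝ] V} {C : ℕ → ℝ}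

variable (F p σ B) in
/-- symmetric on smooth sections -/
def Sy : Prop := ∀ u v : Sec I p,
  ∫ y, ⟪F.op σ B u.1 y, v.1 y⟫_ℝ ∂F.μ = ∫ y, ⟪u.1 y, F.op σ B v.1 y⟫_ℝ ∂F.μ

/-- the symbol of a symmetric operator is skew -/
theorem skew_of_sy (g : (⟨p, p, σ, B⟩ : Op Y ι V V).Good F C) (h : Sy F p B σ) (a : ι) (x : Y)
    (v w : V) : ⟪σ a x v, w⟫_ℝ = -⟪v, σ a x w⟫_ℝ := by
  set A : Op Y ι V V := ⟨p, p, σ, B⟩
  have hp : Sm I p := g.p.cb.1
  have sec : ∀ (χ : Y → ℝ) (u : Sec I p), Sm I χ → (fun y => χ y • u.1 y) ∈ Sec I p := fun χ u hχ =>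
    ⟨hχ.smul u.2.1, HasCompactSupport.of_compactSpace _, fun y => by rw [map_smul, u.2.2.2]⟩
  have int : ∀ {u v : Y → V}, Sm I u → Sm I v → Integrable (fun x => ⟪u x, v x⟫_ℝ) F.μ :=
    fun hu hv => F.integrable_inner hu.continuous (HasCompactSupport.of_compactSpace _) hv.continuous
  obtain ⟨ξ, hξ⟩ := Wrd81.exists_covector F x a
  obtain ⟨f, hf, -, -, hfd⟩ := Wrd81.exists_fun_deriv (I := I) (univ_mem : univ ∈ 𝓝 x) ξ
  have hs : Sm I (sy F A f) := (cb_sy g (Cb_of_compact hf)).choose_spec.1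
  have key : ∀ u v : Sec I p,
      ∫ y, (⟪sy F A f y (u.1 y), v.1 y⟫_ℝ + ⟪u.1 y, sy F A f y (v.1 y)⟫_ℝ) ∂F.μ = 0 := fun u v => by
    have h1 := h ⟨_, sec f u hf⟩ v
    have h2 := h u ⟨_, sec f v hf⟩
    have su : Sm I (A.app F u.1) := (LS g u).2.1
    have sv : Sm I (A.app F v.1) := (LS g v).2.1
    change ∫ y, ⟪A.app F (fun y => f y • u.1 y) y, v.1 y⟫_ℝ ∂F.μ =
      ∫ y, ⟪f y • u.1 y, A.app F v.1 y⟫_ℝ ∂F.μ at h1
    change ∫ y, ⟪A.app F u.1 y, f y • v.1 y⟫_ℝ ∂F.μ =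
      ∫ y, ⟪u.1 y, A.app F (fun y => f y • v.1 y) y⟫_ℝ ∂F.μ at h2
    simp only [app_smul hf u.2.1, app_smul hf v.2.1, inner_add_left, inner_add_right] at h1 h2
    rw [integral_add (int (u := fun y => f y • A.app F u.1 y) (hf.smul su) v.2.1)
       (int (hs.clm_apply u.2.1) v.2.1)] at h1
    rw [integral_add (int (v := fun y => f y • A.app F v.1 y) u.2.1 (hf.smul sv))
       (int u.2.1 (hs.clm_apply v.2.1))] at h2
    rw [integral_add (int (hs.clm_apply u.2.1) v.2.1) (int u.2.1 (hs.clm_apply v.2.1))]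
    simp only [real_inner_smul_left, real_inner_smul_right] at h1 h2
    linarith
  let c : V → Sec I p := fun v => ⟨fun y => p y v, hp.clm_apply contMDiff_const,
    HasCompactSupport.of_compactSpace _, fun y => g.p.idem y v⟩
  let k : Y → ℝ := fun y => ⟪sy F A f y (p y v), p y w⟫_ℝ + ⟪p y v, sy F A f y (p y w)⟫_ℝ
  have ip : ∀ {u v : Y → V}, Sm I u → Sm I v → Sm I fun y => ⟪u y, v y⟫_ℝ := fun hu hv =>
    ((innerSL ℝ : V →L[ℝ] V →L[ℝ] ℝ).contMDiff.comp hu).clm_apply hv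
  have hk : Sm I k := (ip (hs.clm_apply (c v).2.1) (c w).2.1).add
    (ip (c v).2.1 (hs.clm_apply (c w).2.1))
  have h0 := key ⟨_, sec k (c v) hk⟩ (c w)
  have h1 : ∫ y, k y * k y ∂F.μ = 0 := by
    refine Eq.trans (integral_congr_ae (ae_of_all _ fun y => ?_)) h0
    simp only [map_smul, real_inner_smul_left, c]
    exact mul_add _ _ _
  have := openPos F.toPre
  have h2 := (hk.continuous.mul hk.continuous).ae_eq_iff_eq F.μ continuous_zero |>.1
    ((integral_eq_zero_iff_of_nonneg (fun y => mul_self_nonneg (k y))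
      ((hk.continuous.mul hk.continuous).integrable_of_hasCompactSupport
        (HasCompactSupport.of_compactSpace _))).1 h1)
  have h3 : k x = 0 := mul_self_eq_zero.1 (congrFun h2 x)
  have e : sy F A f x = σ a x := by
    refine Eq.trans (Finset.sum_congr rfl fun b _ => ?_) (g.Pσ a x)
    rw [Pre.D, hfd, hξ]
  simp only [k, e] at h3
  have e1 : ∀ v, σ a x (p x v) = σ a x v := g.σp a x
  have e2 : ∀ v, p x (σ a x v) = σ a x v := g.qσ a x
  have e3 : ∀ v w, ⟪p x v, w⟫_ℝ = ⟪v, p x w⟫_ℝ := g.p.symm x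
  rw [e1, e1, ← e3, e3 v, e2, e2] at h3
  linarith

variable (p B σ) in
/-- `∂_t + L` -/
abbrev cop : Op Y (Option ι) V V := ⟨p, p, fun a => a.elim p σ, B⟩

theorem nu_cop (g : (⟨p, p, σ, B⟩ : Op Y ι V V).Good F C) (y : Y) : nu (cop p B σ) y = p y :=
  ContinuousLinearMap.ext fun v => ext_inner_right ℝ fun w =>
    (inner_nu _ _ _).trans (g.p.symm y v w).symm

theorem sop_cop (g : (⟨p, p, σ, B⟩ : Op Y ι V V).Good F C) : sop (cop p B σ) = ⟨p, p, σ, B⟩ := by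
  simp only [sop, nu_cop g]
  congr 1
  · exact funext₂ fun a y => ContinuousLinearMap.ext (g.qσ a y)
  · exact funext fun y => ContinuousLinearMap.ext (g.qB y)

/-- a symmetric operator of Dirac type gives a translation invariant operator on the cylinder -/
theorem cyO (hd : Module.finrank ℝ E ≤ 3) (g : (⟨p, p, σ, B⟩ : Op Y ι V V).Good F C)
    (c : (⟨p, p, σ, B⟩ : Op Y ι V V).CliffL F) (h : Sy F p B σ) : CyO F (cop p B σ) := by
  have sk := skew_of_sy g h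
  have hp := Cht98.Cb_fst F.toPre ⟨_, g.p.cb⟩
  have e1 : ∀ y v, p y (p y v) = p y v := g.p.idem
  have e2 : ∀ a y v, p y (σ a y v) = σ a y v := g.qσ
  have e3 : ∀ y v w, ⟪p y v, w⟫_ℝ = ⟪v, p y w⟫_ℝ := g.p.symm
  have pp : ∀ y v w, ⟪p y v, p y w⟫_ℝ = ⟪p y v, w⟫_ℝ := fun y v w => by rw [← e3, e1]
  have sp : ∀ a y v w, ⟪σ a y v, p y w⟫_ℝ = ⟪σ a y v, w⟫_ℝ := fun a y v w => by rw [← e3, e2]
  have ps : ∀ a y v w, ⟪p y v, σ a y w⟫_ℝ = -⟪σ a y v, w⟫_ℝ := fun a y v w => by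
    rw [e3, e2, sk, neg_neg]
  have t1 : ∀ y, Op.tr (p y) = p y := nu_cop g
  have t2 : ∀ a y, Op.tr (σ a y) = -σ a y := fun a y => ContinuousLinearMap.ext fun v =>
    ext_inner_right ℝ fun w => by rw [tr_inner, neg_apply, inner_neg_left, sk, neg_neg]
  refine ⟨hd, good_of_cb hp hp ?_ (Cht98.Cb_fst F.toPre ⟨_, g.B⟩) (fun x => g.p.idem x.1)
    (fun x => g.p.symm x.1) (fun x => g.p.idem x.1) (fun x => g.p.symm x.1) ?_ ?_
    (fun x => g.qB x.1) ?_, ⟨?_, ?_⟩, fun u v => ?_⟩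
  · rintro (_ | a)
    exacts [hp, Cht98.Cb_fst F.toPre ⟨_, g.σ a⟩]
  · rintro (_ | a) x
    exacts [g.p.idem x.1, g.σp a x.1]
  · rintro (_ | a) x
    exacts [g.p.idem x.1, g.qσ a x.1]
  · rintro (_ | a) x <;> rw [Fintype.sum_option]
    · simp [cyl, cP]
    · simpa [cyl, cP] using g.Pσ a x.1
  · rintro (_ | a) (_ | b) x v w
    · simp [cyl, cP, pp, two_mul]
    · simp [cyl, cP, ps, sp]
    · simp [cyl, cP, ps, sp]
    · exact c a b x.1 v w
  · rintro (_ | a) (_ | b) x v w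
    · simp [cyl, cP, Op.adj, t1, pp, two_mul]
    · simp [cyl, cP, Op.adj, t1, t2, ps, sp]
    · simp [cyl, cP, Op.adj, t1, t2, ps, sp]
    · simpa [cyl, cP, Op.adj, t2] using c a b x.1 v w
  · rw [sop_cop g]; exact h u v

/-- **the spectral flow on the cross-section**, `sf a b = ind (∂_t + L + a + s (b - a))` -/
theorem isSF (hd : Module.finrank ℝ E ≤ 3) (g : (⟨p, p, σ, B⟩ : Op Y ι V V).Good F C)
    (c : (⟨p, p, σ, B⟩ : Op Y ι V V).CliffL F) (h : Sy F p B σ) {T : (Y → V) → Y → V}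
    (hT : ∀ w : Sec I p, F.op σ B w.1 = T w.1) {s s' : ℝ →ᵇ ℝ} {r : ℝ} (hs : Stp s s' r) :
    Crt72.SF (F.incl 1 0 p) (F.lift 1 0 p p T) (Crt72.symA _)
      (sf (F.incl 1 0 p) (F.lift 1 0 p p T) (Ψ F.toPre 1 p) (TH F p) s) := by
  have e : F.lift 1 0 p p T = LH F (cop p B σ) 0 := RepT.liftT_eq fun u => by
    obtain ⟨v, h1, h2⟩ := (rep_OpH (cyO hd g c h).good_sop.choose_spec 0).1 u
    refine ⟨v, h1.trans (Eq.trans ?_ (hT u)), h2⟩
    exact congrArg (fun A : Op Y ι V V => A.app F u.1) (sop_cop g)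
  rw [e]
  exact (cyO hd g c h).isSF hs

end Crest.Agent.X212.Ms1

namespace Crest.Agent.X212.Ms1
open An Cyf70 Nd18 Crt72

variable {E3 : Type} [NormedAddCommGroup E3] [NormedSpace ℝ E3] [FiniteDimensional ℝ E3]
  [MeasurableSpace E3] [BorelSpace E3]
  {H3 : Type} [TopologicalSpace H3] {I3 : ModelWithCorners ℝ E3 H3} [I3.Boundaryless]
  {Y : Type} [TopologicalSpace Y] [ChartedSpace H3 Y] [IsManifold I3 ∞ Y] [T2Space Y]
  [MeasurableSpace Y] [BorelSpace Y] [SecondCountableTopology Y] [CompactSpace Y]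
  {κ : Type} [Fintype κ] {lam : Type} [Fintype lam] (D : YD I3 Y κ lam)

/-- the spectral flow of the model: the index on the cylinder -/
def sfY (s : ℝ →ᵇ ℝ) : SfT D := fun o =>
  sf (D.F.incl 1 0 _) (D.F.lift 1 0 _ _ (lf D o.1)) (Ψ D.F.toPre 1 (ph D o.1)) (TH D.F (ph D o.1)) s

theorem axSf (h : HY D) (h3 : Op3 D) {s s' : ℝ →ᵇ ℝ} {r : ℝ} (hs : Stp s s' r) (k : ℕ)
    (act : ActT D k) : (gm D k act (sfY D s)).AxSf := fun o => by
  obtain ⟨⟨σ, B, C, g, c, e, sy⟩, -⟩ := h3 o.1 o.2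
  exact isSF h.dim.le g c.1 (fun u v => by rw [e, e]; exact sy u v) e hs

theorem sfStmt : SfStmt D := fun h h3 =>
  let ⟨s, _, hs⟩ := exists_stp
  ⟨sfY D s, axSf D h h3 hs⟩

end Crest.Agent.X212.Ms1
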