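import Crest.Agent.X212.Crt72.Plan

/-!
# Row 212, CRIT (helper1): masses at finitely many points (`MsStmt`)
-/

set_option autoImplicit false
set_option linter.unusedSectionVars false
noncomputable section
open Set Filter Topology Function Module
open scoped InnerProductSpace

namespace Crest.Agent.X212.Ms1
open Crt72

section one
variable {X₁ X₀ : Type*} [NormedAddCommGroup X₁] [NormedSpace ℝ X₁] [CompleteSpace X₁]
  [NormedAddCommGroup X₀] [InnerProductSpace ℝ X₀] [CompleteSpace X₀]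
  {i L : X₁ →L[ℝ] X₀} {sf : (X₀ →L[ℝ] X₀) → (X₀ →L[ℝ] X₀) → ℤ}
  {J₁ : X₁ →L[ℝ] X₁} {J a : X₀ →L[ℝ] X₀}

theorem rk_sym (J : X₀ →L[ℝ] X₀) (ψ : X₀) : rk J ψ ∈ symA X₀ := fun x y => by
  simp only [rk_apply, inner_add_left, inner_add_right, real_inner_smul_left,
    real_inner_smul_right, real_inner_comm x]
  ring

theorem rk_inner (J : X₀ →L[ℝ] X₀) (ψ x : X₀) :
    ⟪rk J ψ x, x⟫_ℝ = ⟪ψ, x⟫_ℝ * ⟪ψ, x⟫_ℝ + ⟪J ψ, x⟫_ℝ * ⟪J ψ, x⟫_ℝ := by
  rw [rk_apply, inner_add_left, real_inner_smul_left, real_inner_smul_left]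

/-- the rank one step, `J` complex only on `ψ` -/
theorem step (H : SF i L (symA X₀) sf) (iJ : ∀ u, i (J₁ u) = J (i u))
    (skew : ∀ x y, ⟪J x, y⟫_ℝ = -⟪x, J y⟫_ℝ) (ha : a ∈ symA X₀)
    (hT : ∀ u, Op i L a (J₁ u) = J (Op i L a u)) (hb : Bijective (Op i L a)) {ψ : X₀} {φ : X₁}
    (hψ : J (J ψ) = -ψ) (hTφ : Op i L a φ = ψ) {σ : ℝ} (hσ : σ = 1 ∨ σ = -1)
    (hm : σ * ⟪ψ, i φ⟫_ℝ < 0) : ∃ t : ℝ, Bijective (Op i L (a + t • rk J ψ)) ∧
      sf a (a + t • rk J ψ) = if σ = 1 then 2 else -2 := by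
  set m := σ * ⟪ψ, i φ⟫_ℝ with hmd
  have hTJ : Op i L a (J₁ φ) = J ψ := by rw [hT, hTφ]
  have o1 : ⟪J ψ, i φ⟫_ℝ = 0 := by
    have := H.symOp ha (J₁ φ) φ
    rw [hTJ, hTφ, iJ, skew (i φ)] at this
    linarith [real_inner_comm (J ψ) (i φ)]
  have o2 : ⟪ψ, J (i φ)⟫_ℝ = 0 := by linarith [skew ψ (i φ)]
  have o3 : ⟪J ψ, J (i φ)⟫_ℝ = ⟪ψ, i φ⟫_ℝ := by
    have := skew (J ψ) (i φ)
    rw [hψ, inner_neg_left] at this
    linarith
  have hker : ∀ (t : ℝ) u, Op i L (a + (σ * t) • rk J ψ) u = 0 ↔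
      u = -(σ * t * ⟪ψ, i u⟫_ℝ) • φ + -(σ * t * ⟪J ψ, i u⟫_ℝ) • J₁ φ := fun t u => by
    rw [← hb.1.eq_iff, Op_add, add_apply, map_add, map_smul, map_smul, hTφ, hTJ,
      ContinuousLinearMap.comp_apply, smul_apply, rk_apply, add_eq_zero_iff_eq_neg]
    constructor <;> intro h <;> rw [h] <;> module
  have hev : ∀ x y : ℝ, σ * ⟪ψ, i (x • φ + y • J₁ φ)⟫_ℝ = x * m ∧
      σ * ⟪J ψ, i (x • φ + y • J₁ φ)⟫_ℝ = y * m := fun x y => by
    simp only [map_add, map_smul, inner_add_right, real_inner_smul_right, iJ, o1, o2, o3, hmd]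
    constructor <;> ring
  have hτ : 0 < -m⁻¹ := neg_pos.2 (inv_lt_zero.2 hm)
  have hσ2 : σ * σ = 1 := by rcases hσ with rfl | rfl <;> norm_num
  have hinv : ∀ t ∈ Ico 0 (-m⁻¹), Bijective (Op i L (a + (σ * t) • rk J ψ)) := fun t ht =>
    H.bij_of_inj fun u hu => by
      have e := (hker t u).1 hu
      have e2 := hev (-(σ * t * ⟪ψ, i u⟫_ℝ)) (-(σ * t * ⟪J ψ, i u⟫_ℝ))
      rw [← e] at e2
      have hpos : 0 < 1 + t * m := by
        have := mul_lt_mul_of_neg_right ht.2 hm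
        rw [neg_mul, inv_mul_cancel₀ hm.ne] at this
        linarith
      have a1 : σ * ⟪ψ, i u⟫_ℝ = 0 := (mul_eq_zero.1 (show σ * ⟪ψ, i u⟫_ℝ * (1 + t * m) = 0 by
        linear_combination e2.1)).resolve_right hpos.ne'
      have a2 : σ * ⟪J ψ, i u⟫_ℝ = 0 := (mul_eq_zero.1 (show σ * ⟪J ψ, i u⟫_ℝ * (1 + t * m) = 0 by
        linear_combination e2.2)).resolve_right hpos.ne'
      rw [e, mul_right_comm, a1, mul_right_comm σ t, a2]; simp
  have hK : Submodule.span ℝ {φ, J₁ φ} = (Op i L (a + (σ * -m⁻¹) • rk J ψ)).ker := by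
    ext u
    rw [Submodule.mem_span_pair, LinearMap.mem_ker, ContinuousLinearMap.coe_coe, hker]
    refine ⟨?_, fun h => ⟨_, _, h.symm⟩⟩
    rintro ⟨x, y, rfl⟩
    rw [mul_right_comm, (hev x y).1, mul_right_comm σ, (hev x y).2]
    congr 2 <;> field_simp [hm.ne]
  have hbp : ∀ k ∈ Submodule.span ℝ {φ, J₁ φ}, k ≠ 0 → 0 < ⟪rk J ψ (i k), i k⟫_ℝ := fun k hk h0 => by
    obtain ⟨x, y, rfl⟩ := Submodule.mem_span_pair.1 hk
    rw [rk_inner]
    obtain ⟨e1, e2⟩ := hev x y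
    have e3 : ∀ p : ℝ, p * p = (σ * p) * (σ * p) := fun p => by linear_combination -(p * p) * hσ2
    rw [e3 ⟪ψ, _⟫_ℝ, e3 ⟪J ψ, _⟫_ℝ, e1, e2]
    have : x ≠ 0 ∨ y ≠ 0 := by
      by_contra h
      push Not at h
      exact h0 (by rw [h.1, h.2]; simp)
    rcases this with h | h
    · nlinarith [mul_self_pos.2 (mul_ne_zero h hm.ne), mul_self_nonneg (y * m)]
    · nlinarith [mul_self_pos.2 (mul_ne_zero h hm.ne), mul_self_nonneg (x * m)]
  have hr : finrank ℝ (Submodule.span ℝ {φ, J₁ φ}) = 2 := by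
    have hl : LinearIndependent ℝ ![φ, J₁ φ] := by
      rw [LinearIndependent.pair_iff]
      intro s t hst
      have := hev s t
      simp only [hst, map_zero, inner_zero_right, mul_zero, zero_eq_mul, hm.ne, or_false] at this
      exact this
    have := finrank_span_eq_card hl
    rwa [Matrix.range_cons_cons_empty, Fintype.card_fin] at this
  have hr' := rk_sym J ψ
  rcases hσ with rfl | rfl
  · obtain ⟨ε, -, b1, f1⟩ := H.step ha hr' hr' hτ (Or.inl rfl) hinv (hK ▸ hbp)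
      (K₂ := ⊥) ((sup_bot_eq _).trans hK) (by simp) hbp (by simp)
    refine ⟨1 * -m⁻¹ + ε, ?_⟩
    rw [add_smul, ← add_assoc]
    exact ⟨b1, by simpa [hr] using f1⟩
  · obtain ⟨ε, -, b1, f1⟩ := H.step ha hr' ((symA X₀).neg_mem hr') hτ (Or.inr rfl) hinv
      (hK ▸ hbp) (K₁ := ⊥) ((bot_sup_eq _).trans hK) (by simp) (by simp)
      (fun k hk h0 => by simpa only [neg_apply, inner_neg_left, neg_lt_zero] using hbp k hk h0)
    refine ⟨-1 * -m⁻¹ + -ε, ?_⟩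
    rw [add_smul, ← add_assoc, neg_smul, ← smul_neg]
    refine ⟨b1, ?_⟩
    rw [if_neg (by norm_num)] at f1 ⊢
    rw [f1, hr]; rfl

/-- the sign of the inverse on `ψ` -/
theorem sign (H : SF i L (symA X₀) sf) (ha : a ∈ symA X₀) (hb : Bijective (Op i L a)) :
    ∃ R : ℝ, ∀ (ψ : X₀) (v : X₁) (ε : ℝ), ε = 1 ∨ ε = -1 →
      R * (‖L v - ψ‖ ^ 2 + ‖i v‖ ^ 2) < ε * ⟪i v, ψ⟫_ℝ →
      ∃ φ, Op i L a φ = ψ ∧ -ε * ⟪ψ, i φ⟫_ℝ < 0 := by
  obtain ⟨S, h1, h2⟩ := exists_inv hb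
  set c := 1 + ‖a‖ ^ 2
  set d := ‖i ∘L S‖
  refine ⟨c + 1 + 2 * d * c, fun ψ v ε hε h => ⟨S ψ, h1 ψ, ?_⟩⟩
  set r := L v - ψ + a (i v) with hr
  have e1 : ψ = Op i L a v - r := by rw [hr, Op_apply]; abel
  have e2 : S ψ = v - S r := by rw [e1, map_sub, h2]
  have e3 : ⟪ψ, i (S r)⟫_ℝ = ⟪i v, r⟫_ℝ - ⟪r, i (S r)⟫_ℝ := by
    conv_lhs => rw [e1, inner_sub_left, H.symOp ha, h1]
  have n1 : ‖r‖ ≤ ‖L v - ψ‖ + ‖a‖ * ‖i v‖ := (norm_add_le _ _).trans (by
    gcongr; exact a.le_opNorm _)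
  have n2 : ‖r‖ ^ 2 ≤ 2 * c * (‖L v - ψ‖ ^ 2 + ‖i v‖ ^ 2) := by
    have := pow_le_pow_left₀ (norm_nonneg _) n1 2
    have h3 : 0 ≤ ‖a‖ ^ 2 * ‖L v - ψ‖ ^ 2 := by positivity
    nlinarith [sq_nonneg (‖L v - ψ‖ - ‖a‖ * ‖i v‖), sq_nonneg ‖i v‖]
  have n3 : |⟪i v, r⟫_ℝ| ≤ ‖i v‖ * ‖r‖ := abs_real_inner_le_norm _ _
  have n4 : |⟪r, i (S r)⟫_ℝ| ≤ d * ‖r‖ ^ 2 := (abs_real_inner_le_norm _ _).trans (by
    have : ‖i (S r)‖ ≤ d * ‖r‖ := (i ∘L S).le_opNorm r
    nlinarith [mul_le_mul_of_nonneg_left this (norm_nonneg r)])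
  have n5 := mul_le_mul_of_nonneg_left n2 (show 0 ≤ d from norm_nonneg _)
  rw [e2, map_sub, inner_sub_right, e3, real_inner_comm]
  have := abs_le.1 n3
  have := abs_le.1 n4
  rcases hε with rfl | rfl <;> nlinarith [sq_nonneg (‖i v‖ - ‖r‖), sq_nonneg ‖L v - ψ‖]

/-- no spectral flow near an invertible operator -/
theorem near (H : SF i L (symA X₀) sf) (ha : a ∈ symA X₀) (hb : Bijective (Op i L a)) :
    ∀ᶠ c in 𝓝 a, c ∈ symA X₀ → Bijective (Op i L c) ∧ sf a c = 0 := by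
  have h : Continuous (Op i L) := by unfold Op; fun_prop
  obtain ⟨δ, hδ, hs⟩ := Metric.mem_nhds_iff.1 ((isOpen_bij.preimage h).mem_nhds hb)
  filter_upwards [Metric.ball_mem_nhds a hδ] with c hc hcs
  exact ⟨hs hc, H.hom a ha c hcs fun s hs' =>
    hs ((convex_ball a δ).add_smul_sub_mem (Metric.mem_ball_self hδ) hc hs')⟩

end one

theorem ms : MsStmt := by
  classical
  intro ι _ X₁ X₀ _ _ _ _ _ _ i L sf J₁ J 𝒲 Ψ h a ha
  have cl : ∀ m, ∀ ψ ∈ Ψ m, Pi.single m (rk (J m) ψ) ∈ 𝒲.topologicalClosure := fun m ψ hψ => by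
    refine Metric.mem_closure_iff.2 fun δ hδ => ?_
    obtain ⟨K, hK, k1, k2⟩ := h.app m ψ hψ (δ / 2) (by positivity)
    refine ⟨K, hK, (dist_pi_lt_iff hδ).2 fun n => ?_⟩
    rw [dist_comm, dist_eq_norm]
    by_cases e : n = m
    · subst e; rw [Pi.single_eq_same]; linarith
    · rw [Pi.single_eq_of_ne e, sub_zero]; linarith [k2 n e]
  refine ⟨fun hn => ?_, fun haJ hb n => ?_⟩
  · let U : ∀ m, Set (X₀ m) := fun m =>
      ((Op (i m) (L m) (a m)).ker.map (i m : X₁ m →ₗ[ℝ] X₀ m) : Set (X₀ m)) ∩ Metric.sphere 0 1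
    have hU : ∀ m, IsCompact (U m) := fun m => by
      have := ((h.sf m).frOp (a m)).1.finite_ker
      have := (isCompact_sphere (0 : (Op (i m) (L m) (a m)).ker.map (i m : X₁ m →ₗ[ℝ] X₀ m)) 1).image
        continuous_subtype_val
      convert this using 1
      ext x
      exact ⟨fun ⟨p, q⟩ => ⟨⟨x, p⟩, by simpa using q, rfl⟩, fun ⟨y, p, q⟩ => q ▸ ⟨y.2, by simpa using p⟩⟩
    have hB : ∀ m, ∃ b : X₀ m →L[ℝ] X₀ m, Pi.single m b ∈ 𝒲.topologicalClosure ∧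
        (∀ x, 0 ≤ ⟪b x, x⟫_ℝ) ∧ ∀ x ∈ U m, 0 < ⟪b x, x⟫_ℝ := fun m => by
      refine (hU m).induction_on (p := fun s => ∃ b : X₀ m →L[ℝ] X₀ m,
        Pi.single m b ∈ 𝒲.topologicalClosure ∧ (∀ x, 0 ≤ ⟪b x, x⟫_ℝ) ∧ ∀ x ∈ s, 0 < ⟪b x, x⟫_ℝ)
        ⟨0, by simp, by simp, by simp⟩
        (fun s t hs ht => ht.imp fun b p => ⟨p.1, p.2.1, fun x hx => p.2.2 x (hs hx)⟩)
        (fun s t ⟨b, p, q, r⟩ ⟨b', p', q', r'⟩ => ⟨b + b', by
          rw [Pi.single_add]; exact add_mem p p', fun x => ?_, fun x hx => ?_⟩) ?_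
      · rw [add_apply, inner_add_left]; exact add_nonneg (q x) (q' x)
      · rw [add_apply, inner_add_left]
        exact hx.elim (fun e => add_pos_of_pos_of_nonneg (r x e) (q' x))
          fun e => add_pos_of_nonneg_of_pos (q x) (r' x e)
      · rintro _ ⟨⟨k, hk, rfl⟩, hx⟩
        have q : ∀ ψ x, 0 ≤ ⟪rk (J m) ψ x, x⟫_ℝ := fun ψ x => by
          rw [rk_inner]; exact add_nonneg (mul_self_nonneg _) (mul_self_nonneg _)
        obtain ⟨ψ, hψ, hp⟩ : ∃ ψ ∈ Ψ m, 0 < ⟪rk (J m) ψ (i m k), i m k⟫_ℝ := by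
          by_contra hc
          push Not at hc
          have := hn m k hk fun ψ hψ => by
            have := (hc ψ hψ).antisymm (q _ _)
            rw [rk_inner] at this
            exact mul_self_add_mul_self_eq_zero.1 this
          simp [this] at hx
        exact ⟨_, mem_nhdsWithin_of_mem_nhds ((isOpen_lt continuous_const
          (f := fun _ => (0 : ℝ)) (g := fun x => ⟪rk (J m) ψ x, x⟫_ℝ) (by fun_prop)).mem_nhds hp),
          _, cl m ψ hψ, q ψ, fun x hx => hx⟩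
    choose b b1 _ b2 using hB
    have hb : b ∈ 𝒲.topologicalClosure := by
      rw [← Finset.univ_sum_single b]; exact sum_mem fun m _ => b1 m
    have ev : ∀ᶠ K in 𝓝 b, ∀ m, ∀ x ∈ U m, 0 < ⟪K m x, x⟫_ℝ := eventually_all.2 fun m =>
      (hU m).eventually_forall_of_forall_eventually fun x hx =>
        (isOpen_lt continuous_const (g := fun z : (∀ m, X₀ m →L[ℝ] X₀ m) × X₀ m =>
          ⟪z.1 m z.2, z.2⟫_ℝ) (by fun_prop)).mem_nhds (b2 m x hx)
    obtain ⟨K, k1, k2⟩ := mem_closure_iff_nhds.1 hb _ ev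
    obtain ⟨ε, hε⟩ := (eventually_all.2 fun m => pert (h.sf m).cpt ((h.sf m).frOp (a m))
      ((h.sf m).symOp (ha m)) (c := fun _ => K m) continuous_const fun _ _ k hk hk' => by
        by_contra h0
        have h1 : ‖i m k‖ ≠ 0 := norm_ne_zero_iff.2 fun e =>
          h0 ((h.sf m).inj (e.trans (map_zero _).symm))
        have := k1 m (‖i m k‖⁻¹ • i m k) ⟨Submodule.smul_mem _ _ ⟨k, hk, rfl⟩, by
          simp [norm_smul, h1]⟩
        simp [real_inner_smul_left, real_inner_smul_right, hk' k hk] at this).exists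
    exact ⟨ε • K, 𝒲.smul_mem ε k2, fun m => by
      rw [Op_add]; exact hε m 0 ⟨le_rfl, zero_le_one⟩⟩
  · let P : (ι → ℤ) → Prop := fun n => ∃ K ∈ 𝒲, ∀ m,
      Bijective (Op (i m) (L m) (a m + K m)) ∧ sf m (a m) (a m + K m) = 2 * n m
    have st : ∀ n m (ε : ℝ), ε = 1 ∨ ε = -1 → P n →
        P (n + Pi.single m (if -ε = 1 then 1 else -1)) := by
      rintro n m ε hε ⟨K, hK, k⟩
      have s1 : ∀ l, a l + K l ∈ symA (X₀ l) := fun l => add_mem (ha l) (h.sym K hK l).1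
      obtain ⟨R, hR⟩ := sign (h.sf m) (s1 m) (k m).1
      obtain ⟨ψ, hψ, v, hv⟩ := h.sgn m ε hε R
      obtain ⟨φ, p1, p2⟩ := hR ψ v ε hε hv
      obtain ⟨t, t1, t2⟩ := step (h.sf m) (h.iJ m) (h.skew m) (s1 m) (fun u => by
        simp only [Op_apply, add_apply, h.LJ, h.iJ, haJ, (h.sym K hK m).2, map_add]) (k m).1
        (h.nrm m ψ hψ) p1 (by rcases hε with rfl | rfl <;> simp) p2
      set B : ∀ l, X₀ l →L[ℝ] X₀ l := t • Pi.single m (rk (J m) ψ) with hB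
      have s2 : ∀ l, (a l + K l + B l ∈ symA (X₀ l) ∧ Bijective (Op (i l) (L l) (a l + K l + B l))) ∧
          sf l (a l + K l) (a l + K l + B l) =
            2 * (Pi.single m (if -ε = 1 then 1 else -1) : ι → ℤ) l := fun l => by
        by_cases e : l = m
        · subst e
          simp only [hB, Pi.smul_apply, Pi.single_eq_same]
          exact ⟨⟨add_mem (s1 l) (Submodule.smul_mem _ _ (rk_sym _ _)), t1⟩, by
            rw [t2]; split_ifs <;> rfl⟩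
        · simp only [hB, Pi.smul_apply, Pi.single_eq_of_ne e, smul_zero, add_zero, mul_zero]
          exact ⟨⟨s1 l, (k l).1⟩, (h.sf l).self (s1 l) (k l).1⟩
      have ev := eventually_all.2 fun l => (show ContinuousAt
        (fun K' : ∀ l, X₀ l →L[ℝ] X₀ l => a l + K l + K' l) B from
          (continuous_const.add (continuous_apply l)).continuousAt).eventually
          (near (h.sf l) (s2 l).1.1 (s2 l).1.2)
      obtain ⟨K', k1, k2⟩ := mem_closure_iff_nhds.1 (Submodule.smul_mem _ t (cl m ψ hψ)) _ ev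
      refine ⟨K + K', add_mem hK k2, fun l => ?_⟩
      have s3 := add_mem (s1 l) (h.sym K' k2 l).1
      obtain ⟨q1, q2⟩ := k1 l s3
      rw [Pi.add_apply, ← add_assoc]
      refine ⟨q1, ?_⟩
      rw [← (h.sf l).add _ (ha l) _ (s1 l) _ s3 (hb l) (k l).1 q1,
        ← (h.sf l).add _ (s1 l) _ (s2 l).1.1 _ s3 (k l).1 (s2 l).1.2 q1, (k l).2, (s2 l).2, q2,
        Pi.add_apply]
      ring
    have st2 : ∀ m (k : ℤ) n, P n → P (n + Pi.single m k) := fun m k n hn => by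
      induction k using Int.induction_on with
      | zero => simpa using hn
      | succ k ih => simpa [Pi.single_add, add_assoc] using st _ m (-1) (Or.inr rfl) ih
      | pred k ih =>
        have := st _ m 1 (Or.inl rfl) ih
        rwa [if_neg (by norm_num), add_assoc, ← Pi.single_add, ← sub_eq_add_neg] at this
    have : ∀ s : Finset ι, P (∑ m ∈ s, Pi.single m (n m)) := fun s => by
      induction s using Finset.induction_on with
      | empty => exact ⟨0, zero_mem _, fun m => by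
          simpa using ⟨hb m, (h.sf m).self (ha m) (hb m)⟩⟩
      | insert m s hm ih => rw [Finset.sum_insert hm, add_comm]; exact st2 _ _ _ ih
    simpa only [Finset.univ_sum_single] using this Finset.univ

end Crest.Agent.X212.Ms1
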